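import Vale.Agent.P141.PL.H804.Glue
import Vale.Agent.P141.PL.H317.CostDefs

/-!
# P141, line W: the moving star in block form (`StarBlk`) and in general form (`StarGen`)

`x0` is fixed; `A : ℕ → ℤ → ℤ → ℝ` is a moving matrix (`A k` = the matrix in use at scale `k`),
on the root square of scale `N` with indices `(R, S)`.

RETRACTED: the product forms `StarBlk` and `StarGen` below are false for every constant (board row
3941).  Nothing imports this file; the definitions `Flag`, `age`, `chg`, `Gen` make sense.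
-/

namespace Vale.Agent.P141.H907

open Finset Vale.Agent.P141.PL
open Vale.Agent.P141.PL.H317 (Cap cbs)
open Vale.Agent.P141.PL.H588 (sq Pl)

noncomputable section

open scoped Classical

/-- The moving matrix changes between the scales `k + 1` and `k` somewhere on the square of scale
`k` with indices `(m1, m2)`. -/
def Flag (A : ℕ → ℤ → ℤ → ℝ) (k : ℕ) (m1 m2 : ℤ) : Prop :=
  ∃ x ∈ iv k m1, ∃ y ∈ iv k m2, A k x y ≠ A (k + 1) x y

/-- The age: number of the flagged squares of the scales `k ≤ l < N` over the point. -/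
def age (N : ℕ) (A : ℕ → ℤ → ℤ → ℝ) (k : ℕ) (x y : ℤ) : ℕ :=
  ((Ico k N).filter fun l => Flag A l (ix l x) (ix l y)).card

/-- Total charge of a moving matrix: energy at the root and energy of the OLD matrix on all flagged
squares (of scales `1 ≤ k < N`). -/
def chg (N : ℕ) (R S : ℤ) (A : ℕ → ℤ → ℤ → ℝ) : ℝ :=
  sq N R S (A N) + ∑ k ∈ Ico 1 N, ∑ n ∈ iv (N - k) R, ∑ m ∈ iv (N - k) S,
    if Flag A k n m then sq k n m (A (k + 1)) else 0

/-- **STAR, block form (736, 609)**: caps on all squares of the scales `1..N`, charges, product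
form. -/
def StarBlk (C₀ : ℝ) : Prop :=
  ∀ (N : ℕ) (R : Pt) (c : ℕ → ℤ), Pl c →
  ∀ (A B C : ℕ → ℤ → ℤ → ℝ) (cA cB cC DA DB DC : ℝ), 0 ≤ cA → 0 ≤ cB → 0 ≤ cC →
    (∀ k ∈ Icc 1 N, ∀ m ∈ cbs N R k, Cap k m.1 m.2.1 cA (A k) ∧ Cap k m.2.1 m.2.2 cB (B k) ∧
      Cap k m.1 m.2.2 cC (C k)) →
    chg N R.1 R.2.1 A ≤ DA → chg N R.2.1 R.2.2 B ≤ DB → chg N R.1 R.2.2 C ≤ DC →
    ∑ k ∈ Icc 1 N, (2 ^ k : ℝ)⁻¹ * ∑ m ∈ cbs N R k with m.1 + m.2.1 + m.2.2 = c k,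
      |tri k m (A k) (B k) (C k)| ≤ C₀ * (cA * cB * cC * (DA * DB * DC)) ^ (1 / 3 : ℝ)

/-- **General moving matrices**: fewer than `2 ^ J` flags on every path (scales `1 ≤ k < N`); caps
only at EXITS (the old matrix on a flagged square; the matrix of scale `1` on the squares of scale
`1`); `W` dominates `|A 1|²` and the square of the `2`-variation of the path at every point. -/
structure Gen (N : ℕ) (R S : ℤ) (J : ℕ) (c D : ℝ) (A : ℕ → ℤ → ℤ → ℝ) : Prop where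
  age_lt : ∀ x ∈ iv N R, ∀ y ∈ iv N S, age N A 1 x y < 2 ^ J
  exit : ∀ k, 1 ≤ k → k < N → ∀ m1 ∈ iv (N - k) R, ∀ m2 ∈ iv (N - k) S,
    Flag A k m1 m2 → Cap k m1 m2 c (A (k + 1))
  bot : ∀ m1 ∈ iv (N - 1) R, ∀ m2 ∈ iv (N - 1) S, Cap 1 m1 m2 c (A 1)
  var : ∃ W : ℤ → ℤ → ℝ, (∀ x ∈ iv N R, ∀ y ∈ iv N S, A 1 x y ^ 2 ≤ W x y ∧
      ∀ (s : ℕ → ℕ) (M : ℕ), Antitone s → (∀ r, 1 ≤ s r ∧ s r ≤ N) →
        ∑ r ∈ range M, (A (s (r + 1)) x y - A (s r) x y) ^ 2 ≤ W x y) ∧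
    ∑ y ∈ iv N S, ∑ x ∈ iv N R, W x y ≤ D

/-- **STAR, general form**: arbitrary moving matrices, loss `(J + 1)³`, product form. -/
def StarGen (C₁ : ℝ) : Prop :=
  ∀ (N J : ℕ) (R : Pt) (c : ℕ → ℤ), Pl c →
  ∀ (A B C : ℕ → ℤ → ℤ → ℝ) (cA cB cC DA DB DC : ℝ), 0 ≤ cA → 0 ≤ cB → 0 ≤ cC →
    Gen N R.1 R.2.1 J cA DA A → Gen N R.2.1 R.2.2 J cB DB B → Gen N R.1 R.2.2 J cC DC C →
    ∑ k ∈ Icc 1 N, (2 ^ k : ℝ)⁻¹ * ∑ m ∈ cbs N R k with m.1 + m.2.1 + m.2.2 = c k,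
      |tri k m (A k) (B k) (C k)| ≤
        C₁ * (J + 1) ^ 3 * (cA * cB * cC * (DA * DB * DC)) ^ (1 / 3 : ℝ)

end

end Vale.Agent.P141.H907
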